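import Vale.Agent.N194Q.Fin

/-!
P194: Kaplansky's direct finiteness conjecture fails over every field of positive characteristic;
the fields, and the commutative rings, over which all group rings are directly finite.
`IsDedekindFiniteMonoid A` is direct finiteness (`a * b = 1` implies `b * a = 1`).
-/

universe u v

theorem Vale.Agent.Results.P194.A0AllPrimes.result :
    (∀ (K : Type u) [Field K], List.TFAE
      [∀ (G : Type v) [Group G], IsDedekindFiniteMonoid (MonoidAlgebra K G),
        ∀ (G : Type v) [Group G], IsStablyFiniteRing (MonoidAlgebra K G),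
        IsDedekindFiniteMonoid (MonoidAlgebra K (Equiv.Perm ℕ)),
        CharZero K]) ∧
    (∀ (R : Type u) [CommRing R], List.TFAE
      [∀ (G : Type v) [Group G], IsDedekindFiniteMonoid (MonoidAlgebra R G),
        ∀ (G : Type v) [Group G], IsStablyFiniteRing (MonoidAlgebra R G),
        IsDedekindFiniteMonoid (MonoidAlgebra R (Equiv.Perm ℕ)),
        ∀ (e : R) (n : ℕ), e * e = e → 0 < n → n • e = 0 → e = 0]) ∧
    (∀ n : ℕ, 2 ≤ n → ∃ (H : Type) (_ : Group H), Group.IsFinitelyPresented H ∧ Infinite H ∧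
      ∀ (Q : Type v) [Group Q] (f : H →* Q), (∃ h, f h ≠ 1) →
        ∀ (R : Type u) [Ring R] [CharP R n], ¬ IsDedekindFiniteMonoid (MonoidAlgebra R Q)) ∧
    ∃ (S : Type) (_ : Group S), IsSimpleGroup S ∧ Group.FG S ∧
      ∀ (H : Type v) [Group H] (i : S →* H), Function.Injective i →
        ∀ (R : Type u) [Ring R] [Nontrivial R], ringChar R ≠ 0 →
          ¬ IsDedekindFiniteMonoid (MonoidAlgebra R H) :=
  ⟨Vale.Agent.N194Q.r2, Vale.Agent.N194Q.r3, Vale.Agent.N194Q.r4, Vale.Agent.N194Q.r5⟩
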